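import Vale.Agent.P270B.Main

/-! P270: generalised abundance on compact hyperbolic Kaehler manifolds, for every nef `M`. -/

open scoped Manifold ContDiff

namespace Vale.Agent.Results.P270.B_nef

open Vale.Agent.P272 Vale.Agent.P270B

theorem result (n : ℕ) (hn : 1 ≤ n) (X : Type) [TopologicalSpace X] [T2Space X] [CompactSpace X]
    [ConnectedSpace X] [ChartedSpace (E n) X] [IsManifold 𝓘(ℂ, E n) ω X]
    (g : HermMetric n X) (hg : g.IsClosed)
    (hy : ∀ f : ℂ → X, MDifferentiable 𝓘(ℂ, ℂ) 𝓘(ℂ, E n) f → ∀ z w, f z = f w)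
    (M : LineBundle n X) (hM : M.IsNef g) : AdjSemiample M :=
  semiample hn g hg.isKahler hy M hM

end Vale.Agent.Results.P270.B_nef
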