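import Vale.Agent.P285.Fin
import Vale.Agent.P272.F.Z.DD
import Vale.Agent.P272.F.A.Fin

/-! P270: semiampleness of adjoint bundles on compact hyperbolic Kaehler manifolds. -/

open scoped Manifold ContDiff

namespace Vale.Agent.Results.P270.C_pair

open Vale.Agent.P272 Vale.Agent.P270 Vale.Agent.P285

theorem result (n : ℕ) (hn : 1 ≤ n) (X : Type) [TopologicalSpace X] [T2Space X] [CompactSpace X]
    [ConnectedSpace X] [ChartedSpace (E n) X] [IsManifold 𝓘(ℂ, E n) ω X]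
    (g : HermMetric n X) (hg : g.IsClosed)
    (hy : ∀ f : ℂ → X, MDifferentiable 𝓘(ℂ, ℂ) 𝓘(ℂ, E n) f → ∀ z w, f z = f w)
    (M : LineB n X) (r a b : ℕ) (hab : a < b * r) (hM : NefC M g a b) : SemiC M r := by
  refine c_full g hg.isKahler hy M hab hM fun A hA ρ hρ v => ?_
  have hP : Asm.PR A := fun θ ρ hρ F B m t h1 h2 ht => by
    obtain ⟨φ, B', h3, h4, x, h5⟩ := perron hn θ F h1 h2
    obtain ⟨ψ, h6, h7⟩ := reg hn θ ρ hρ F h3 h4 ht
    exact ⟨ψ, h6, fun y => le_trans (sub_le_sub_right (h4 y).1 t) (h7 y), x,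
      le_trans (sub_le_sub_right h5 t) (h7 x)⟩
  exact Asm.positive hn hP hρ (fun τ => barrier hn τ ρ hρ v)
    (fun _ _ _ he hh h => vsl hn hA ρ hρ v he hh h) fun _ h => nosuper hn v.toPot ρ hρ v h

end Vale.Agent.Results.P270.C_pair
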